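import Vale.Agent.P236EL.Ops
import Mathlib.Data.Nat.Choose.Lucas

/-!
# P236K2 / Dig : monomials of small weight as lists of twelve ternary digits
-/

namespace Vale.Agent.P236K2

open Vale.Agent.P236EL

/-- the value of a list of ternary digits -/
def val : List ℕ → ℕ
  | [] => 0
  | a :: l => a + 3 * val l

/-- the first `k` ternary digits -/
def dgs : ℕ → ℕ → List ℕ
  | 0, _ => []
  | k + 1, n => n % 3 :: dgs k (n / 3)

/-- lists of `n` ternary digits -/
def Vd (n : ℕ) (m : List ℕ) : Prop := m.length = n ∧ ∀ a ∈ m, a < 3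

theorem Vd.take {n k : ℕ} {m : List ℕ} (h : Vd n m) (hk : k ≤ n) : Vd k (m.take k) :=
  ⟨by rw [List.length_take, h.1, min_eq_left hk], fun a ha => h.2 a (List.mem_of_mem_take ha)⟩

theorem Vd.drop {n : ℕ} (k : ℕ) {m : List ℕ} (h : Vd (n + k) m) : Vd n (m.drop k) :=
  ⟨by rw [List.length_drop, h.1, Nat.add_sub_cancel],
    fun a ha => h.2 a (List.mem_of_mem_drop ha)⟩

theorem Vd.append {n k : ℕ} {m l : List ℕ} (h : Vd n m) (h' : Vd k l) : Vd (n + k) (m ++ l) :=
  ⟨by rw [List.length_append, h.1, h'.1],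
    fun a ha => (List.mem_append.1 ha).elim (h.2 a) (h'.2 a)⟩

theorem vd_cons {n a : ℕ} {m : List ℕ} : Vd (n + 1) (a :: m) ↔ a < 3 ∧ Vd n m := by
  simp only [Vd, List.length_cons, Nat.add_right_cancel_iff, List.forall_mem_cons]
  tauto

theorem vd_dgs (k n : ℕ) : Vd k (dgs k n) := by
  induction k generalizing n with
  | zero => exact ⟨rfl, fun a ha => by simp [dgs] at ha⟩
  | succ k ih => exact vd_cons.2 ⟨Nat.mod_lt _ (by omega), ih _⟩

theorem val_dgs {k n : ℕ} (h : n < 3 ^ k) : val (dgs k n) = n := by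
  induction k generalizing n with
  | zero =>
    rw [pow_zero] at h
    rw [dgs, val]
    omega
  | succ k ih =>
    rw [pow_succ] at h
    rw [dgs, val, ih (by omega)]
    omega

theorem dgs_val {k : ℕ} {m : List ℕ} (h : Vd k m) : dgs k (val m) = m := by
  induction m generalizing k with
  | nil =>
    obtain rfl : 0 = k := h.1
    rfl
  | cons a m ih =>
    obtain rfl : m.length + 1 = k := h.1
    obtain ⟨h1, h2⟩ := vd_cons.1 h
    rw [dgs, val, show (a + 3 * val m) % 3 = a by omega, show (a + 3 * val m) / 3 = val m by omega,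
      ih h2]

/-- digitwise domination -/
def dm : List ℕ → List ℕ → Bool
  | [], _ => true
  | _ :: _, [] => false
  | a :: l, c :: m => Nat.ble a c && dm l m

theorem dm_take_drop {l m : List ℕ} (h : dm l m = true) (k : ℕ) :
    dm (l.take k) (m.take k) = true ∧ dm (l.drop k) (m.drop k) = true := by
  induction k generalizing l m with
  | zero => exact ⟨rfl, h⟩
  | succ k ih =>
    rcases l with _ | ⟨a, l⟩
    · exact ⟨rfl, rfl⟩
    rcases m with _ | ⟨c, m⟩
    · exact absurd h (by simp [dm])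
    rw [dm, Bool.and_eq_true] at h
    refine ⟨?_, (ih h.2).2⟩
    rw [List.take_succ_cons, List.take_succ_cons, dm, h.1, (ih h.2).1]
    rfl

theorem dm_lucas {l m : List ℕ} (h : dm l m = true) (hm : ∀ a ∈ m, a < 3) :
    ¬ 3 ∣ (val m).choose (val l) := by
  induction l generalizing m with
  | nil => simp [val]
  | cons a l ih =>
    rcases m with _ | ⟨c, m⟩
    · exact absurd h (by simp [dm])
    rw [dm, Bool.and_eq_true, Nat.ble_eq] at h
    have hc : c < 3 := hm c (List.mem_cons_self ..)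
    have h1 := ih h.2 fun a ha => hm a (List.mem_cons_of_mem _ ha)
    have : Fact (Nat.Prime 3) := ⟨Nat.prime_three⟩
    have h2 := Choose.choose_modEq_choose_mod_mul_choose_div_nat (n := val (c :: m))
      (k := val (a :: l)) (p := 3)
    rw [val, val, show (c + 3 * val m) % 3 = c by omega, show (c + 3 * val m) / 3 = val m by omega,
      show (a + 3 * val l) % 3 = a by omega, show (a + 3 * val l) / 3 = val l by omega] at h2
    rw [val, val, h2.dvd_iff dvd_rfl, Nat.prime_three.dvd_mul]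
    rintro (h3 | h3)
    · have h4 := h.1
      interval_cases c <;> interval_cases a <;> simp at h3
    · exact h1 h3

/-- the exponent with four entries -/
noncomputable def mk4 (a b c d : ℕ) : ℕ →₀ ℕ :=
  Finsupp.single 0 a + Finsupp.single 1 b + Finsupp.single 2 c + Finsupp.single 3 d

theorem mk4_0 (a b c d : ℕ) : mk4 a b c d 0 = a := by simp [mk4]
theorem mk4_1 (a b c d : ℕ) : mk4 a b c d 1 = b := by simp [mk4]
theorem mk4_2 (a b c d : ℕ) : mk4 a b c d 2 = c := by simp [mk4]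
theorem mk4_3 (a b c d : ℕ) : mk4 a b c d 3 = d := by simp [mk4]
theorem mk4_4 (a b c d i : ℕ) : mk4 a b c d (i + 4) = 0 := by simp [mk4]

theorem weight_mk4 (ω : ℕ → ℕ) (a b c d : ℕ) :
    Finsupp.weight ω (mk4 a b c d) = a * ω 0 + b * ω 1 + c * ω 2 + d * ω 3 := by
  simp [mk4, Finsupp.weight_single]

theorem weight_wt_mk4 (a b c d : ℕ) :
    Finsupp.weight (wt 3) (mk4 a b c d) = a + 4 * b + 13 * c + 40 * d := by
  rw [weight_mk4]
  simp only [wt]
  omega

theorem wt_ge (i : ℕ) : 121 ≤ wt 3 (i + 4) := by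
  induction i with
  | zero => exact le_rfl
  | succ i ih =>
    rw [show i + 1 + 4 = (i + 4) + 1 from rfl, wt]
    omega

theorem eq_mk4 {G : ℕ →₀ ℕ} (h : Finsupp.weight (wt 3) G < 121) :
    G = mk4 (G 0) (G 1) (G 2) (G 3) := by
  ext i
  match i with
  | 0 => rw [mk4_0]
  | 1 => rw [mk4_1]
  | 2 => rw [mk4_2]
  | 3 => rw [mk4_3]
  | i + 4 =>
    rw [mk4_4]
    by_contra hc
    have h1 := Finsupp.le_weight_of_ne_zero (w := wt 3) (fun _ => Nat.zero_le _) hc
    have := wt_ge i
    omega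

/-- the exponent with the given digits -/
noncomputable def toG (m : List ℕ) : ℕ →₀ ℕ :=
  mk4 (val (m.take 5)) (val ((m.drop 5).take 4)) (val (((m.drop 5).drop 4).take 2))
    (val (((m.drop 5).drop 4).drop 2))

/-- the digits of an exponent -/
def dig4 (a b c d : ℕ) : List ℕ := dgs 5 a ++ (dgs 4 b ++ (dgs 2 c ++ dgs 1 d))

theorem vd_dig4 (a b c d : ℕ) : Vd 12 (dig4 a b c d) :=
  (vd_dgs 5 a).append ((vd_dgs 4 b).append ((vd_dgs 2 c).append (vd_dgs 1 d)))

theorem toG_dig4 {a b c d : ℕ} (h : a + 4 * b + 13 * c + 40 * d < 117) :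
    toG (dig4 a b c d) = mk4 a b c d := by
  rw [toG, dig4, List.take_left' (vd_dgs 5 a).1, List.drop_left' (vd_dgs 5 a).1,
    List.take_left' (vd_dgs 4 b).1, List.drop_left' (vd_dgs 4 b).1,
    List.take_left' (vd_dgs 2 c).1, List.drop_left' (vd_dgs 2 c).1,
    val_dgs (by omega), val_dgs (by omega), val_dgs (by omega), val_dgs (by omega)]

theorem exists_toG {G : ℕ →₀ ℕ} (h : Finsupp.weight (wt 3) G < 117) :
    ∃ m, Vd 12 m ∧ toG m = G := by
  have h1 := eq_mk4 (G := G) (by omega)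
  rw [h1, weight_wt_mk4] at h
  exact ⟨_, vd_dig4 _ _ _ _, (toG_dig4 h).trans h1.symm⟩

theorem dig4_toG {m : List ℕ} (h : Vd 12 m) :
    dig4 (toG m 0) (toG m 1) (toG m 2) (toG m 3) = m := by
  have h1 : Vd 7 (m.drop 5) := Vd.drop 5 h
  have h2 : Vd 3 ((m.drop 5).drop 4) := Vd.drop 4 h1
  have h3 : Vd 1 (((m.drop 5).drop 4).drop 2) := Vd.drop 2 h2
  rw [toG, mk4_0, mk4_1, mk4_2, mk4_3, dig4, dgs_val (h.take (by omega)),
    dgs_val (h1.take (by omega)), dgs_val (h2.take (by omega)), dgs_val h3,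
    List.take_append_drop, List.take_append_drop, List.take_append_drop]

theorem toG_inj {m m' : List ℕ} (h : Vd 12 m) (h' : Vd 12 m') (e : toG m = toG m') : m = m' := by
  rw [← dig4_toG h, e, dig4_toG h']

theorem toG_lucas {l m : List ℕ} (h : dm l m = true) (hm : ∀ a ∈ m, a < 3) (i : ℕ) :
    ¬ 3 ∣ (toG m i).choose (toG l i) := by
  obtain ⟨h1, h2⟩ := dm_take_drop h 5
  obtain ⟨h3, h4⟩ := dm_take_drop h2 4
  obtain ⟨h5, h6⟩ := dm_take_drop h4 2
  have m2 : ∀ a ∈ m.drop 5, a < 3 := fun a ha => hm a (List.mem_of_mem_drop ha)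
  have m4 : ∀ a ∈ (m.drop 5).drop 4, a < 3 := fun a ha => m2 a (List.mem_of_mem_drop ha)
  rw [toG, toG]
  match i with
  | 0 =>
    rw [mk4_0, mk4_0]
    exact dm_lucas h1 fun a ha => hm a (List.mem_of_mem_take ha)
  | 1 =>
    rw [mk4_1, mk4_1]
    exact dm_lucas h3 fun a ha => m2 a (List.mem_of_mem_take ha)
  | 2 =>
    rw [mk4_2, mk4_2]
    exact dm_lucas h5 fun a ha => m4 a (List.mem_of_mem_take ha)
  | 3 =>
    rw [mk4_3, mk4_3]
    exact dm_lucas h6 fun a ha => m4 a (List.mem_of_mem_drop ha)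
  | i + 4 =>
    rw [mk4_4, mk4_4]
    simp

theorem toG_le {l m : List ℕ} (h : dm l m = true) (hm : ∀ a ∈ m, a < 3) : toG l ≤ toG m := by
  intro i
  by_contra hc
  apply toG_lucas h hm i
  rw [Nat.choose_eq_zero_of_lt (not_le.1 hc)]
  exact dvd_zero 3

/-- the scalar product of two lists -/
def dot : List ℕ → List ℕ → ℕ
  | d :: ds, a :: m => d * a + dot ds m
  | _, _ => 0

/-- the weights of the twelve digits -/
def ds12 : List ℕ := [1, 3, 9, 27, 81, 4, 12, 36, 108, 13, 39, 40]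

theorem weight_toG {m : List ℕ} (h : m.length = 12) :
    Finsupp.weight (wt 3) (toG m) = dot ds12 m := by
  rw [toG, weight_wt_mk4]
  match m, h with
  | [a0, a1, a2, a3, a4, a5, a6, a7, a8, a9, a10, a11], _ =>
    simp only [List.take, List.drop, val, dot, ds12]
    omega

end Vale.Agent.P236K2
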