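import Vale.Agent.P236EL.Wt

/-!
# P236K2 / Add : the structure maps at the additive point in characteristic `p`
-/

noncomputable section

namespace Vale.Agent.P236K2

open MvPolynomial Vale.Agent.P236EL Vale.Agent.P251.F

variable (p : ℕ) [hp : Fact p.Prime] {B : Type*} [CommRing B]

theorem logI_zero : logI p (fun _ => (0 : B)) = 1 := by
  ext m
  rw [logI_val]
  change _ = PowerSeries.coeff m PowerSeries.X
  rw [PowerSeries.coeff_X]
  by_cases hm : ∃ k, m = p ^ k
  · obtain ⟨k, rfl⟩ := hm
    rw [logV_pow]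
    rcases k with _ | k
    · simp
    · rw [one1_succ, if_neg]
      exact (Nat.one_lt_pow (Nat.succ_ne_zero k) hp.out.one_lt).ne'
  · push Not at hm
    rw [logV_ne p _ hm, if_neg]
    rintro rfl
    exact hm 0 (pow_zero p).symm

theorem hz_zero : hz p (fun _ => (0 : B)) = addLaw B := by
  have h1 : el p (fun _ => (0 : ℚ)) = fun _ => 0 := by
    funext n
    rw [el_eq, Finset.sum_eq_zero, mul_zero]
    intro i _
    rw [zero_pow (pow_ne_zero _ hp.out.ne_zero), mul_zero]
  have h2 := logI_smul_hz p (fun _ => (0 : ℚ))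
  rw [h1, logI_zero, one_smul] at h2
  have h3 : hz p (fun _ => (0 : ℤ)) = addLaw ℤ := by
    apply law_map_injective (ι := Int.castRingHom ℚ) Int.cast_injective
    rw [map_hz, map_addLaw, ← h2]
    simp
  have h4 := congrArg (Law.map (Int.castRingHom B)) h3
  rw [map_hz, map_addLaw] at h4
  simpa using h4

omit hp in
theorem lt_zero (t : ℕ → B) : lt p (fun _ => (0 : B)) t = t := by
  funext n
  rw [lt, Finset.sum_range_succ, Finset.sum_eq_zero]
  · simp
  · intro j hj
    rw [Finset.mem_range] at hj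
    rw [show n + 1 - j = n - j + 1 by omega, one1_succ, zero_mul]

theorem hs_add (t : ℕ → B) : hs p (addLaw B) t = logI p t := by
  have h := logI_mul_hs p (F := addLaw B) (l := fun _ => 0) (by rw [logI_zero, one_smul]) t
  rwa [logI_zero, one_mul, lt_zero] at h

omit hp in
theorem lam_zero_succ (n : ℕ) (hp : p ≠ 0) : lam p (fun _ => (0 : B)) (n + 1) = 0 := by
  rw [lam_succ, Finset.sum_eq_zero]
  intro i _
  rw [zero_pow (pow_ne_zero _ hp), mul_zero]

theorem lam_tg_zero (t : ℕ → B) (n : ℕ) :
    lam p (tg p (fun _ => 0) t) n = (p : B) ^ n * one1 t n := by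
  rw [lam_tg, Finset.sum_range_succ, Finset.sum_eq_zero]
  · simp [lam_zero]
  · intro j hj
    rw [Finset.mem_range] at hj
    rw [show n - j = n - j - 1 + 1 by omega, lam_zero_succ p _ hp.out.ne_zero, mul_zero, zero_mul]

theorem dvd_tg_zero (n : ℕ) :
    (p : MvPolynomial ℕ ℤ) ∣ tg p (fun _ => 0) (X : ℕ → MvPolynomial ℕ ℤ) n := by
  induction n using Nat.strong_induction_on with
  | _ n ih =>
    set w := tg p (fun _ => 0) (X : ℕ → MvPolynomial ℕ ℤ) with hw
    have h := lam_tg_zero p (X : ℕ → MvPolynomial ℕ ℤ) (n + 1)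
    rw [lam_succ, Finset.sum_range_succ', ← hw] at h
    have h1 : ∀ i ∈ Finset.range n, (p : MvPolynomial ℕ ℤ) ^ (n - (i + 1)) * lam p w (i + 1) *
        w (n - (i + 1)) ^ p ^ (i + 1) =
        (p : MvPolynomial ℕ ℤ) ^ n * (X i * w (n - (i + 1)) ^ p ^ (i + 1)) := by
      intro i hi
      rw [Finset.mem_range] at hi
      rw [hw, lam_tg_zero, ← mul_assoc, ← pow_add, show n - (i + 1) + (i + 1) = n by omega,
        one1_succ, mul_assoc]
    rw [Finset.sum_congr rfl h1, ← Finset.mul_sum, lam_zero, Nat.sub_zero, pow_zero, pow_one,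
      mul_one, ← mul_add, pow_succ, mul_assoc] at h
    have h2 := mul_left_cancel₀ (pow_ne_zero n (Nat.cast_ne_zero.2 hp.out.ne_zero)) h
    rw [← eq_sub_iff_add_eq'] at h2
    rw [h2]
    refine dvd_sub (dvd_mul_right _ _) (Finset.dvd_sum fun i hi => ?_)
    rw [Finset.mem_range] at hi
    exact Dvd.dvd.mul_left ((ih _ (by omega)).trans
      (dvd_pow_self _ (pow_ne_zero _ hp.out.ne_zero))) _

theorem tg_add (h : (p : B) = 0) (t : ℕ → B) : tg p (fun _ => 0) t = fun _ => 0 := by
  funext n
  obtain ⟨c, hc⟩ := dvd_tg_zero p n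
  have h1 := map_tg p (evA t) (fun _ => 0) X n
  simp only [map_zero, evA_X] at h1
  rw [← h1, hc, map_mul, map_natCast, h, zero_mul]

theorem cm_add (h : (p : B) = 0) (s t : ℕ → B) : cm p (fun _ => 0) s t = lt p s t := by
  have h1 := hs_smul_tg p (fun _ => 0) s
  rw [tg_add p h, hz_zero, hs_add] at h1
  have h2 := hs_cm p (fun _ => 0) s t
  rw [tg_add p h, hz_zero, hs_add p s, logI_mul_hs p h1, hs_add] at h2
  exact (logI_injective p h2).symm

omit hp in
theorem lt_eq (s t : ℕ → B) (n : ℕ) : lt p s t n =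
    s n + t n + ∑ j ∈ Finset.range n, s (n - (j + 1)) * t j ^ p ^ (n - j) := by
  rw [lt, Finset.sum_range_succ, Finset.sum_range_succ']
  have h1 : ∀ j ∈ Finset.range n, one1 s (n + 1 - (j + 1)) * one1 t (j + 1) ^ p ^ (n + 1 - (j + 1))
      = s (n - (j + 1)) * t j ^ p ^ (n - j) := by
    intro j hj
    rw [Finset.mem_range] at hj
    rw [show n + 1 - (j + 1) = n - j by omega, one1_succ,
      show n - j = n - (j + 1) + 1 by omega, one1_succ]
  rw [Finset.sum_congr rfl h1]
  simp only [Nat.sub_zero, one1_succ, one1_zero, one_pow, mul_one, Nat.sub_self, pow_zero,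
    pow_one, one_mul]
  ring

variable {L : Type} [CommRing L]

theorem etax_add {x : AA L →+* B} (h : (p : B) = 0) (hx : ∀ i, x (X i) = 0) (a : AA L) :
    etax p x a = C (x a) := by
  have h1 : etax p x = C.comp x := by
    refine ringHom_ext (fun a => by simp [etax]) fun i => ?_
    rw [etax, tgt_X]
    simp only [RingHom.comp_apply, hx, map_zero]
    rw [tg_add p (by rw [← map_natCast C, h, map_zero])]
  rw [h1]
  rfl

theorem delx_add {x : AA L →+* B} (h : (p : B) = 0) (hx : ∀ i, x (X i) = 0) (n : ℕ) :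
    delx p x (X n) = C (X n) + X n +
      ∑ j ∈ Finset.range n, C (X (n - (j + 1))) * X j ^ p ^ (n - j) := by
  rw [delx_X]
  simp only [hx, map_zero]
  rw [cm_add p (by rw [← map_natCast C, ← map_natCast C, h, map_zero, map_zero]), lt_eq]

/-! ### coassociativity -/

theorem delx_etax (x : AA L →+* B) : (delx p x).comp (etax p x) = etax p (etax p x) := by
  refine ringHom_ext (fun a => by simp [etax]) fun i => ?_
  rw [RingHom.comp_apply, etax, tgt_X, map_tg, etax, tgt_X]
  simp only [RingHom.comp_apply, delx_C, tgt_X, map_tg]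
  have h : (fun i => delx p x (X i)) = cm p (fun i => C (C (x (X i)))) (fun i => C (X i)) X :=
    funext fun i => delx_X p x i
  rw [h, tg_cm]

theorem C_cm (v s t : ℕ → B) (n : ℕ) : (C (cm p v s t n) : MvPolynomial ℕ B) =
    cm p (fun i => C (v i)) (fun i => C (s i)) (fun i => C (t i)) n := map_cm p C v s t n

theorem C_tg (v t : ℕ → B) (n : ℕ) : (C (tg p v t n) : MvPolynomial ℕ B) =
    tg p (fun i => C (v i)) (fun i => C (t i)) n := map_tg p C v t n

theorem map_delx_delx (x : AA L →+* B) (G : MvPolynomial ℕ B) :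
    map (delx p x) (delx p x G) = delx p (etax p x) (delx p x G) := by
  have h : (map (delx p x)).comp (delx p x) = (delx p (etax p x)).comp (delx p x) := by
    refine ringHom_ext (fun a => by simp) fun i => ?_
    rw [RingHom.comp_apply, RingHom.comp_apply, delx_X]
    refine (map_cm p (A := MvPolynomial ℕ (MvPolynomial ℕ B)) (map (delx p x)) _ _ _ i).trans
      (Eq.trans ?_ (map_cm p (A := MvPolynomial ℕ (MvPolynomial ℕ B)) (delx p (etax p x))
        _ _ _ i).symm)
    simp only [map_C, map_X, delx_C, delx_X]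
    have h0 : (fun i => (C (cm p (fun i => C (C (x (X i)))) (fun i => C (X i)) X i) :
        MvPolynomial ℕ (MvPolynomial ℕ (MvPolynomial ℕ B)))) =
        cm p (fun i => C (C (C (x (X i))))) (fun i => C (C (X i))) fun i => C (X i) :=
      funext fun i => C_cm p _ _ _ i
    have h1 : (fun i => (C (C (etax p x (X i))) :
        MvPolynomial ℕ (MvPolynomial ℕ (MvPolynomial ℕ B)))) =
        tg p (fun i => C (C (C (x (X i))))) fun i => C (C (X i)) := by
      funext i
      rw [etax, tgt_X, C_tg, C_tg]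
      rfl
    rw [h0, h1]
    exact congrFun (cm_assoc p _ _ _ _) i
  exact congrArg (fun f : _ →+* _ => f G) h

theorem Dop_Dop (x : AA L →+* B) (r' r : (ℕ →₀ ℕ) → AA L) (G : MvPolynomial ℕ B) :
    Dop p x r' (Dop p x r G) = Dop p x (conv p r' r) G := by
  rw [Dop_apply, Dop_apply p x r, map_rAp, delx_etax, map_delx_delx, ← Dop_apply, rAp_Dop,
    Dop_apply]

end Vale.Agent.P236K2

end
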