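import Vale.Agent.P236K2.Ex
import Vale.Agent.P236EL.Cmp

/-!
# P236K2 / Br : the hypothesis `Rs.K2` from leading terms and counting
-/

noncomputable section

namespace Vale.Agent.P236K2

open MvPolynomial Vale.Agent.P236EL Module

variable [hp : Fact (Nat.Prime 3)] {F L : Type} [Field F] [CharP F 3] [CommRing L]
  {π : L →+* F}

omit hp [CharP F 3] in
theorem red_X (i : ℕ) : red π (X i : AA L) = 0 := by simp [red]

omit hp in
theorem red_II {a : AA L} (ha : a ∈ II 3 L) : red π a = 0 := by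
  have h : II 3 L ≤ RingHom.ker (red π) := by
    rw [II, Ideal.span_le]
    rintro _ (rfl | ⟨i, rfl⟩)
    · exact (map_natCast _ 3).trans (CharP.cast_eq_zero F 3)
    · exact red_X i
  exact h ha

omit [CharP F 3] in
theorem dx_eq_dK {W W' : Type} [Fintype W] (x : AA L →+* F)
    (y : W → W' → (ℕ →₀ ℕ) → AA L) (a : W → MvPolynomial ℕ F) : dx 3 x y a = dK 3 x y a :=
  funext fun w => by rw [dx_apply, dK_apply]

omit hp [CharP F 3] in
theorem mem_HV_iff {W : Type} {d : W → ℤ} {dg : W → ℕ} (h : ∀ w, d w = dg w) (e : ℕ)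
    (a : W → MvPolynomial ℕ F) : a ∈ HV 3 F d e ↔ a ∈ Hm 3 F dg e :=
  forall_congr' fun w => by
    rw [h w]
    exact (HW_iff (wt 3) (dg w) e (a w)).symm

omit hp [CharP F 3] in
theorem eq_zero_of_HV {W : Type} {d : W → ℤ} {dg : W → ℕ} (h : ∀ w, d w = dg w) {e : ℤ}
    (he : e < 0) {a : W → MvPolynomial ℕ F} (ha : a ∈ HV 3 F d e) : a = 0 :=
  funext fun w => eq_zero_of_neg (ω := wz 3) (fun _ => Int.natCast_nonneg _)
    (by rw [h w]; omega) (ha w)

omit hp [CharP F 3] in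
theorem HY_of_HomR {W W' : Type} {d : W → ℤ} {d' : W' → ℤ} {dg : W → ℕ} {dg' : W' → ℕ}
    (h : ∀ w, d w = dg w) (h' : ∀ w, d' w = dg' w) {y : W → W' → (ℕ →₀ ℕ) → AA L}
    (hy : ∀ w w', HomR 3 (d w - d' w') (y w w')) : HY 3 (red π) dg dg' y := by
  intro w w' E hE
  have h1 := (mem_G0.1 (grPt_red π _ _ (hy w w' E))).resolve_right hE
  rw [h, h', show wz 3 = fun i => (wt 3 i : ℤ) from rfl, weight_cast] at h1
  omega

variable {G : ℕ → Type} [∀ q, Fintype (G q)] {R : Rs 3 L G}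

theorem dK_aug {r Q : ℕ} {T : ℤ} (hr : 1 ≤ r) (k1 : R.K1 (II 3 L ^ r) Q T) (c : G 0) :
    dK 3 (red π) (R.y 0) (fun w => map (red π) (R.e c w)) = 0 := by
  funext w'
  have h1 : ∀ w, Dop 3 (red π) (R.y 0 w w') (map (red π) (R.e c w)) = ∑ c', map (red π)
      (R.th c c') * map (red π) (etaR 3 L (rAp (RingHom.id _) (R.y 0 w w') (R.e c' w))) := by
    intro w
    have h2 := map_Dop 3 (red π) (RingHom.id _) (R.y 0 w w') (R.e c w)
    rw [RingHom.comp_id] at h2
    rw [← h2, Dop_apply]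
    change map (red π) (rAp (etaR 3 L) _ (Del 3 L _)) = _
    rw [R.coc, map_sum, map_sum]
    refine Finset.sum_congr rfl fun c' _ => ?_
    rw [rAp_C_mul, map_mul, map_rAp (etaR 3 L), RingHom.comp_id]
  rw [dK_apply]
  simp only [h1]
  rw [Finset.sum_comm]
  refine Finset.sum_eq_zero fun c' _ => ?_
  rw [← Finset.mul_sum, ← map_sum, ← map_sum]
  refine mul_eq_zero_of_right _ ?_
  have h3 : ∑ w, rAp (RingHom.id _) (R.y 0 w w') (R.e c' w) ∈ II 3 L :=
    Ideal.pow_le_self (by omega) (k1.aug c' w')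
  have h4 := mem_map_C_iff.1 (inv_II (p := 3) (Ideal.mem_map_of_mem _ h3))
  ext E
  rw [coeff_map, red_II (h4 E), coeff_zero]

/-- **The hypothesis `K2` from leading terms and counting.** -/
theorem K2_of_GB {dg : ∀ q, G q → ℕ} (hdg : ∀ q w, R.deg q w = dg q w) {r Q T : ℕ} (hr : 1 ≤ r)
    (hT : T ≤ 117) {T' : ℤ} (hT' : T' < T) (k1 : R.K1 (II 3 L ^ r) Q ((T : ℤ) - 1))
    {κ : ∀ q, G (q + 1) → ℕ} {lam : ℕ → ℕ → ℕ}
    (hl : ∀ q i j, lam q (i + j + 1) < lam q i + 3 ^ (i + 1) * lam q j)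
    {lts : ∀ q, G (q + 1) → List (List ℕ)}
    (hg : ∀ q, q = 0 ∨ q < Q → ∀ w, ∀ l ∈ lts q w,
      GB 3 (red π) (dg (q + 1)) (κ q) (lam q) (R.y q) w (toG l))
    {B : ℕ} (hB : ∀ q, Fintype.card (G q) * 531441 < B)
    (hinj : ∀ b : G 0 → F, (∀ w, ∑ c, C (b c) * map (red π) (R.e c w) = 0) → b = 0)
    (hc0 : ckD B (PN B (dg 1) (lts 0)) 0 (∑ c, B ^ dg 0 c) T = true)
    (hc : ∀ q, q + 1 < Q → ckD B (PN B (dg (q + 2)) (lts (q + 1))) (PN B (dg (q + 1)) (lts q))
      (PN B (dg (q + 1)) fun _ => []) T = true) : R.K2 π Q T' := by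
  classical
  refine ⟨hinj, fun e he a ha h0 => ?_, fun q hq e he a ha h0 => ?_⟩
  · rcases lt_or_ge e 0 with h | h
    · exact ⟨0, fun c hc => absurd rfl hc, fun w => by simp [eq_zero_of_HV (hdg 1) h ha]⟩
    obtain ⟨e, rfl⟩ := Int.eq_ofNat_of_zero_le h
    have he' : e < T := by omega
    rw [mem_HV_iff (hdg 1)] at ha
    rw [dx_eq_dK] at h0
    obtain ⟨f0, r0⟩ := finrank_ker_le red_X (hl 0) (hg 0 (Or.inl rfl)) (he'.trans_le hT)
    have c1 := ckD_le hc0 he'
    rw [← card_NS (hB 1), Nat.zero_div, Nat.zero_mod, add_zero, digit_sum _ _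
      (by have := hB 0; rw [Finset.card_univ]; omega)] at c1
    let S := Finset.univ.filter fun c => dg 0 c = e
    let φ : (S → F) →ₗ[F] (G 1 → MvPolynomial ℕ F) :=
      Fintype.linearCombination F fun c w => map (red π) (R.e c w)
    have hφ : ∀ (b : S → F) w, φ b w =
        ∑ c, C (if h : c ∈ S then b ⟨c, h⟩ else 0) * map (red π) (R.e c w) := by
      intro b w
      rw [Fintype.linearCombination_apply, Finset.sum_apply, ← Finset.sum_subset
        (Finset.subset_univ S) fun c _ hc => by rw [dif_neg hc, map_zero, zero_mul],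
        ← Finset.sum_coe_sort S]
      exact Finset.sum_congr rfl fun c _ => by rw [dif_pos c.2, Pi.smul_apply, smul_eq_C_mul]
    have hi : Function.Injective φ := by
      rw [injective_iff_map_eq_zero]
      intro b hb
      have h1 := hinj _ fun w => (hφ b w).symm.trans (congrFun hb w)
      funext c
      have h2 := congrFun h1 c
      rwa [dif_pos c.2] at h2
    have hle : LinearMap.range φ ≤ Hm 3 F (dg 1) e ⊓ LinearMap.ker (dK 3 (red π) (R.y 0)) := by
      rw [Fintype.range_linearCombination, Submodule.span_le]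
      rintro _ ⟨c, rfl⟩
      refine ⟨(mem_HV_iff (hdg 1) e _).1 fun w => mem_ext_G0.1 fun E => ?_, dK_aug hr k1 c⟩
      have h1 := grPt_red π _ _ (R.he c w E)
      rw [hdg 0, (Finset.mem_filter.1 c.2).2] at h1
      rw [coeff_map]
      exact h1
    have r1 := LinearMap.finrank_range_of_inj hi
    rw [finrank_fintype_fun_eq_card, Fintype.card_coe] at r1
    have heq := Submodule.eq_of_le_of_finrank_le hle (by rw [r1]; exact r0.trans c1)
    obtain ⟨b, hb⟩ : a ∈ LinearMap.range φ := heq ▸ ⟨ha, h0⟩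
    refine ⟨fun c => if h : c ∈ S then b ⟨c, h⟩ else 0, fun c hc => ?_, fun w => ?_⟩
    · by_cases h1 : c ∈ S
      · rw [hdg 0, (Finset.mem_filter.1 h1).2]
      · exact absurd (dif_neg h1) hc
    · rw [← hφ, hb]
  · rcases lt_or_ge e 0 with h | h
    · exact ⟨0, zero_mem _, by rw [map_zero, eq_zero_of_HV (hdg _) h ha]⟩
    obtain ⟨e, rfl⟩ := Int.eq_ofNat_of_zero_le h
    rw [mem_HV_iff (hdg _)] at ha
    rw [dx_eq_dK] at h0
    obtain ⟨g, hg1, hg2⟩ := exact_of_GB red_X (hl q) (hl (q + 1))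
      (HY_of_HomR (hdg _) (hdg _) (R.hy q)) hT
      (fun w w'' E hE => red_II (Ideal.pow_le_self (n := r) (by omega) (k1.sq q hq w w'' E (by
        rw [hdg, show wz 3 = fun i => (wt 3 i : ℤ) from rfl, weight_cast]
        omega))))
      (hg q (Or.inr (by omega))) (hg (q + 1) (Or.inr hq)) (hB _) (hB _) (hc q hq)
      (e := e) (by omega) ha h0
    exact ⟨g, (mem_HV_iff (hdg _) e g).2 hg1, (dx_eq_dK _ _ _).trans hg2⟩

end Vale.Agent.P236K2

end
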