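import Vale.Agent.P236K2.Dig

/-!
# P236K2 / Cnt : counting monomials outside a monomial ideal, by packed generating functions
-/

namespace Vale.Agent.P236K2

/-- the finite set of lists of `n` ternary digits -/
def DS : ℕ → Finset (List ℕ)
  | 0 => {[]}
  | n + 1 => (Finset.range 3 ×ˢ DS n).image fun x => x.1 :: x.2

theorem mem_DS {n : ℕ} {m : List ℕ} : m ∈ DS n ↔ Vd n m := by
  induction n generalizing m with
  | zero =>
    rw [DS, Finset.mem_singleton]
    constructor
    · rintro rfl
      exact ⟨rfl, fun a ha => by simp at ha⟩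
    · exact fun h => List.length_eq_zero_iff.1 h.1
  | succ n ih =>
    rw [DS, Finset.mem_image]
    constructor
    · rintro ⟨⟨a, l⟩, h, rfl⟩
      rw [Finset.mem_product, Finset.mem_range] at h
      exact vd_cons.2 ⟨h.1, ih.1 h.2⟩
    · intro h
      rcases m with _ | ⟨a, l⟩
      · exact absurd h.1 (by simp)
      · rw [vd_cons] at h
        exact ⟨(a, l), Finset.mem_product.2 ⟨Finset.mem_range.2 h.1, ih.2 h.2⟩, rfl⟩

theorem card_DS (n : ℕ) : (DS n).card ≤ 3 ^ n := by
  induction n with
  | zero => exact le_rfl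
  | succ n ih =>
    rw [DS]
    refine Finset.card_image_le.trans ?_
    rw [Finset.card_product, Finset.card_range, pow_succ]
    omega

theorem sum_DS_succ (n : ℕ) (g : List ℕ → ℕ) : ∑ m ∈ DS (n + 1), g m =
    ∑ m ∈ DS n, g (0 :: m) + ∑ m ∈ DS n, g (1 :: m) + ∑ m ∈ DS n, g (2 :: m) := by
  rw [DS, Finset.sum_image, Finset.sum_product, Finset.sum_range_succ, Finset.sum_range_succ,
    Finset.sum_range_one]
  rintro ⟨a, l⟩ - ⟨b, m⟩ - h
  simp only [List.cons.injEq] at h
  exact Prod.ext h.1 h.2

/-- some list of `Ls` is dominated by `m` -/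
def anyDm (m : List ℕ) : List (List ℕ) → Bool
  | [] => false
  | l :: Ls => dm l m || anyDm m Ls

theorem anyDm_true {m : List ℕ} {Ls : List (List ℕ)} (h : anyDm m Ls = true) :
    ∃ l ∈ Ls, dm l m = true := by
  induction Ls with
  | nil => exact absurd h (by simp [anyDm])
  | cons l Ls ih =>
    rw [anyDm, Bool.or_eq_true] at h
    rcases h with h | h
    · exact ⟨l, List.mem_cons_self .., h⟩
    · obtain ⟨l', h1, h2⟩ := ih h
      exact ⟨l', List.mem_cons_of_mem _ h1, h2⟩

/-- the tails of the lists with first digit at most `c` -/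
def flt (c : ℕ) : List (List ℕ) → List (List ℕ)
  | [] => []
  | [] :: Ls => [] :: flt c Ls
  | (a :: l) :: Ls => bif Nat.ble a c then l :: flt c Ls else flt c Ls

theorem anyDm_cons (c : ℕ) (m : List ℕ) (Ls : List (List ℕ)) :
    anyDm (c :: m) Ls = anyDm m (flt c Ls) := by
  induction Ls with
  | nil => rfl
  | cons l Ls ih =>
    rcases l with _ | ⟨a, l⟩
    · rfl
    · rw [anyDm, flt, dm, ih]
      cases Nat.ble a c
      · simp
      · simp [anyDm]

/-- one of the lists is empty -/
def hasNil : List (List ℕ) → Bool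
  | [] => false
  | [] :: _ => true
  | (_ :: _) :: Ls => hasNil Ls

theorem anyDm_of_hasNil {Ls : List (List ℕ)} (h : hasNil Ls = true) (m : List ℕ) :
    anyDm m Ls = true := by
  induction Ls with
  | nil => exact absurd h (by simp [hasNil])
  | cons l Ls ih =>
    rcases l with _ | ⟨a, l⟩
    · rfl
    · rw [anyDm, ih h, Bool.or_true]

theorem anyDm_nil (Ls : List (List ℕ)) : anyDm [] Ls = hasNil Ls := by
  induction Ls with
  | nil => rfl
  | cons l Ls ih =>
    rcases l with _ | ⟨a, l⟩
    · rfl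
    · rw [anyDm, ih]
      rfl

/-- all first digits are at most `c` -/
def hdLe (c : ℕ) : List (List ℕ) → Bool
  | [] => true
  | [] :: Ls => hdLe c Ls
  | (a :: _) :: Ls => Nat.ble a c && hdLe c Ls

theorem flt_of_hdLe {c c' : ℕ} {Ls : List (List ℕ)} (h : hdLe c Ls = true) (hc : c ≤ c') :
    flt c' Ls = flt c Ls := by
  induction Ls with
  | nil => rfl
  | cons l Ls ih =>
    rcases l with _ | ⟨a, l⟩
    · rw [flt, flt, ih h]
    · rw [hdLe, Bool.and_eq_true] at h
      rw [flt, flt, ih h.2, h.1, Nat.ble_eq_true_of_le ((Nat.le_of_ble_eq_true h.1).trans hc)]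

/-- the packed generating function of all digit lists -/
def full (B : ℕ) : List ℕ → ℕ
  | [] => 1
  | d :: ds => (1 + B ^ d + B ^ (d * 2)) * full B ds

/-- the packed generating function of the digit lists which dominate no list of `Ls` -/
def pk (B : ℕ) : List ℕ → List (List ℕ) → ℕ
  | [], Ls => bif hasNil Ls then 0 else 1
  | d :: ds, Ls => bif Ls.isEmpty then full B (d :: ds) else bif hasNil Ls then 0 else
      bif hdLe 0 Ls then (1 + B ^ d + B ^ (d * 2)) * pk B ds (flt 0 Ls) else
      bif hdLe 1 Ls then pk B ds (flt 0 Ls) + (B ^ d + B ^ (d * 2)) * pk B ds (flt 1 Ls) else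
      pk B ds (flt 0 Ls) + B ^ d * pk B ds (flt 1 Ls) + B ^ (d * 2) * pk B ds (flt 2 Ls)

/-- the generating function of the digit lists which dominate no list of `Ls` -/
def gf (B : ℕ) (ds : List ℕ) (Ls : List (List ℕ)) : ℕ :=
  ∑ m ∈ DS ds.length, if anyDm m Ls = true then 0 else B ^ dot ds m

theorem gf_cons (B d : ℕ) (ds : List ℕ) (Ls : List (List ℕ)) : gf B (d :: ds) Ls =
    gf B ds (flt 0 Ls) + B ^ d * gf B ds (flt 1 Ls) + B ^ (d * 2) * gf B ds (flt 2 Ls) := by
  rw [gf, List.length_cons, sum_DS_succ, gf, gf, gf, Finset.mul_sum, Finset.mul_sum]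
  simp only [anyDm_cons, dot, mul_ite, mul_zero, zero_add, mul_one, pow_add]

theorem full_eq (B : ℕ) (ds : List ℕ) : full B ds = gf B ds [] := by
  induction ds with
  | nil => rfl
  | cons d ds ih =>
    rw [full, gf_cons, ih]
    simp only [flt]
    ring

theorem pk_eq (B : ℕ) (ds : List ℕ) (Ls : List (List ℕ)) : pk B ds Ls = gf B ds Ls := by
  induction ds generalizing Ls with
  | nil =>
    rw [pk, gf, List.length_nil, DS, Finset.sum_singleton, anyDm_nil]
    cases hasNil Ls <;> rfl
  | cons d ds ih =>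
    rw [pk]
    cases h0 : Ls.isEmpty
    · cases h1 : hasNil Ls
      · rw [gf_cons, ih, ih, ih]
        cases h2 : hdLe 0 Ls
        · cases h3 : hdLe 1 Ls
          · rfl
          · rw [flt_of_hdLe h3 (c' := 2) (by omega)]
            simp only [cond_false, cond_true]
            ring
        · rw [flt_of_hdLe h2 (c' := 2) (by omega), flt_of_hdLe h2 (c' := 1) (by omega)]
          simp only [cond_false, cond_true]
          ring
      · exact (Finset.sum_eq_zero fun m _ => if_pos (anyDm_of_hasNil h1 m)).symm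
    · rw [List.isEmpty_iff.1 h0]
      exact full_eq B _

theorem digit_sum {α : Type*} (S : Finset α) (δ : α → ℕ) {B : ℕ} (hB : S.card < B) (e : ℕ) :
    (∑ a ∈ S, B ^ δ a) / B ^ e % B = (S.filter fun a => δ a = e).card := by
  have hB0 : 0 < B := by omega
  have h1 : ∑ a ∈ S.filter (fun a => δ a < e), B ^ δ a < B ^ e := by
    rcases e with _ | e
    · simp
    · calc _ ≤ (S.filter fun a => δ a < e + 1).card • B ^ e :=
            Finset.sum_le_card_nsmul _ _ _ fun a ha =>
              Nat.pow_le_pow_right hB0 (Nat.lt_succ_iff.1 (Finset.mem_filter.1 ha).2)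
        _ < B * B ^ e := Nat.mul_lt_mul_of_pos_right
            ((Finset.card_filter_le _ _).trans_lt hB) (Nat.pow_pos hB0)
        _ = _ := by ring
  have h2 : ∑ a ∈ S, B ^ δ a = ∑ a ∈ S.filter (fun a => δ a < e), B ^ δ a +
      B ^ e * ((S.filter fun a => δ a = e).card +
        B * ∑ a ∈ S.filter (fun a => e < δ a), B ^ (δ a - (e + 1))) := by
    rw [Finset.card_filter, Finset.sum_filter, Finset.sum_filter, Finset.mul_sum,
      ← Finset.sum_add_distrib, Finset.mul_sum, ← Finset.sum_add_distrib]
    refine Finset.sum_congr rfl fun a _ => ?_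
    rcases lt_trichotomy (δ a) e with h | h | h
    · rw [if_pos h, if_neg h.ne, if_neg h.asymm]
      simp
    · rw [if_neg h.not_lt, if_pos h, if_neg h.not_gt, h]
      simp
    · rw [if_neg h.asymm, if_neg h.ne', if_pos h, zero_add, zero_add, ← pow_succ', ← pow_add]
      congr 1
      omega
  rw [h2, Nat.add_mul_div_left _ _ (Nat.pow_pos hB0), Nat.div_eq_of_lt h1, zero_add,
    Nat.add_mul_mod_self_left, Nat.mod_eq_of_lt ((Finset.card_filter_le _ _).trans_lt hB)]

variable {W : Type} [Fintype W]

/-- the standard monomials of degree `e` -/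
def NS (deg : W → ℕ) (lts : W → List (List ℕ)) (e : ℕ) : Finset (W × List ℕ) :=
  ((Finset.univ ×ˢ DS 12).filter fun i => ¬ anyDm i.2 (lts i.1) = true).filter
    fun i => deg i.1 + dot ds12 i.2 = e

theorem mem_NS {deg : W → ℕ} {lts : W → List (List ℕ)} {e : ℕ} {i : W × List ℕ} :
    i ∈ NS deg lts e ↔ Vd 12 i.2 ∧ ¬ anyDm i.2 (lts i.1) = true ∧ deg i.1 + dot ds12 i.2 = e := by
  simp only [NS, Finset.mem_filter, Finset.mem_product, Finset.mem_univ, true_and, mem_DS,
    and_assoc]

/-- the packed numbers of standard monomials -/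
def PN (B : ℕ) (deg : W → ℕ) (lts : W → List (List ℕ)) : ℕ :=
  ∑ w, B ^ deg w * pk B ds12 (lts w)

theorem PN_eq (B : ℕ) (deg : W → ℕ) (lts : W → List (List ℕ)) : PN B deg lts =
    ∑ i ∈ (Finset.univ ×ˢ DS 12).filter fun i : W × List ℕ => ¬ anyDm i.2 (lts i.1) = true,
      B ^ (deg i.1 + dot ds12 i.2) := by
  rw [Finset.sum_filter, Finset.sum_product, PN]
  refine Finset.sum_congr rfl fun w _ => ?_
  rw [pk_eq, gf, Finset.mul_sum, show ds12.length = 12 from rfl]
  refine Finset.sum_congr rfl fun m _ => ?_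
  by_cases h : anyDm m (lts w) = true
  · rw [if_neg (not_not.2 h), if_pos h, mul_zero]
  · rw [if_pos h, if_neg h, pow_add]

theorem card_NS {B : ℕ} (hB : Fintype.card W * 531441 < B) (deg : W → ℕ)
    (lts : W → List (List ℕ)) (e : ℕ) : (NS deg lts e).card = PN B deg lts / B ^ e % B := by
  rw [NS, ← digit_sum _ (fun i : W × List ℕ => deg i.1 + dot ds12 i.2) (B := B), PN_eq]
  refine (Finset.card_filter_le _ _).trans_lt (lt_of_le_of_lt ?_ hB)
  rw [Finset.card_product, Finset.card_univ]
  exact Nat.mul_le_mul_left _ ((card_DS 12).trans (by norm_num))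

/-- the packed numbers of standard monomials, from lists -/
def pnL (B : ℕ) : List ℕ → List (List (List ℕ)) → ℕ
  | d :: degs, Ls :: lts => B ^ d * pk B ds12 Ls + pnL B degs lts
  | _, _ => 0

/-- the packed numbers of all monomials, from a list -/
def pmL (B : ℕ) (degs : List ℕ) : ℕ := (degs.map fun d => B ^ d).sum * full B ds12

theorem PN_list (B : ℕ) {n : ℕ} {degs : List ℕ} {lts : List (List (List ℕ))}
    (h : degs.length = n) (h' : lts.length = n) :
    PN B (fun w : Fin n => degs.getD w 0) (fun w => lts.getD w []) = pnL B degs lts := by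
  induction n generalizing degs lts with
  | zero =>
    rw [List.length_eq_zero_iff.1 h]
    rfl
  | succ n ih =>
    rcases degs with _ | ⟨d, degs⟩
    · exact absurd h (by simp)
    rcases lts with _ | ⟨Ls, lts⟩
    · exact absurd h' (by simp)
    rw [PN, Fin.sum_univ_succ, pnL, ← ih (Nat.succ.inj h) (Nat.succ.inj h')]
    rfl

theorem PM_list (B : ℕ) {n : ℕ} {degs : List ℕ} (h : degs.length = n) :
    PN B (fun w : Fin n => degs.getD w 0) (fun _ => []) = pmL B degs := by
  induction n generalizing degs with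
  | zero =>
    rw [List.length_eq_zero_iff.1 h]
    simp [PN, pmL]
  | succ n ih =>
    rcases degs with _ | ⟨d, degs⟩
    · exact absurd h (by simp)
    have h1 := ih (Nat.succ.inj h)
    rw [PN] at h1
    rw [PN, Fin.sum_univ_succ, pmL, List.map_cons, List.sum_cons, add_mul, ← pmL, ← h1]
    rfl

/-- the inequalities between the digits -/
def ckD (B a b c : ℕ) : ℕ → Bool
  | 0 => true
  | e + 1 => Nat.ble (a / B ^ e % B + b / B ^ e % B) (c / B ^ e % B) && ckD B a b c e

theorem ckD_le {B a b c T : ℕ} (h : ckD B a b c T = true) {e : ℕ} (he : e < T) :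
    a / B ^ e % B + b / B ^ e % B ≤ c / B ^ e % B := by
  induction T with
  | zero => omega
  | succ T ih =>
    rw [ckD, Bool.and_eq_true, Nat.ble_eq] at h
    rcases (Nat.lt_succ_iff.1 he).lt_or_eq with h1 | rfl
    · exact ih h.2 h1
    · exact h.1

end Vale.Agent.P236K2
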