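import Vale.Agent.P236K2.Lead
import Vale.Agent.P236K2.Cnt
import Mathlib.LinearAlgebra.FiniteDimensional.Lemmas

/-!
# P236K2 / Ex : exactness of a complex of cofree comodules from leading terms
-/

noncomputable section

namespace Vale.Agent.P236K2

open MvPolynomial Vale.Agent.P236EL Module

section gen

variable (p : ℕ) [hp : Fact p.Prime] {B L : Type} [CommRing B] [CommRing L]
  {W W' W'' : Type} [Fintype W] [Fintype W'] [Fintype W'']

/-- the map of cofree comodules with matrix `y` -/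
def dK (x : AA L →+* B) (y : W → W' → (ℕ →₀ ℕ) → AA L) :
    (W → MvPolynomial ℕ B) →ₗ[B] (W' → MvPolynomial ℕ B) :=
  LinearMap.pi fun w' => ∑ w, (Dop p x (y w w')).comp (LinearMap.proj w)

omit [Fintype W'] in
theorem dK_apply (x : AA L →+* B) (y : W → W' → (ℕ →₀ ℕ) → AA L) (f : W → MvPolynomial ℕ B)
    (w' : W') : dK p x y f w' = ∑ w, Dop p x (y w w') (f w) := by
  simp [dK]

variable (B) in
/-- homogeneous elements of degree `e` -/
def Hm (deg : W → ℕ) (e : ℕ) : Submodule B (W → MvPolynomial ℕ B) where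
  carrier := {f | ∀ w, HW (wt p) (deg w) e (f w)}
  zero_mem' w m hm := absurd (coeff_zero m) hm
  add_mem' {f g} hf hg w m hm := by
    by_cases h : coeff m (f w) = 0
    · refine hg w m fun h' => hm ?_
      rw [Pi.add_apply, coeff_add, h, h', add_zero]
    · exact hf w m h
  smul_mem' c f hf w m hm := hf w m fun h => hm (by rw [Pi.smul_apply, coeff_smul, h, smul_zero])

/-- the matrix `y` is homogeneous at the point `x` -/
def HY (x : AA L →+* B) (deg : W → ℕ) (deg' : W' → ℕ) (y : W → W' → (ℕ →₀ ℕ) → AA L) : Prop :=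
  ∀ w w' E, x (y w w' E) ≠ 0 → Finsupp.weight (wt p) E + deg w = deg' w'

/-- the composite of two matrices vanishes at the point `x` in degrees `< T` -/
def DD (x : AA L →+* B) (deg : W → ℕ) (T : ℕ) (y : W → W' → (ℕ →₀ ℕ) → AA L)
    (y' : W' → W'' → (ℕ →₀ ℕ) → AA L) : Prop :=
  ∀ w w'' E, Finsupp.weight (wt p) E + deg w < T → x (∑ w', conv p (y' w' w'') (y w w') E) = 0

/-- the image of the dual map contains an element with leading term `(w₀, E₀)` -/
def GB (x : AA L →+* B) (deg κ : W → ℕ) (lam : ℕ → ℕ) (y : W → W' → (ℕ →₀ ℕ) → AA L) (w₀ : W)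
    (E₀ : ℕ →₀ ℕ) : Prop :=
  ∃ z : W' → (ℕ →₀ ℕ) → AA L, x (∑ w', conv p (z w') (y w₀ w') E₀) ≠ 0 ∧ ∀ w E,
    Finsupp.weight (wt p) E + deg w = Finsupp.weight (wt p) E₀ + deg w₀ →
    κ w₀ + Finsupp.weight lam E₀ ≤ κ w + Finsupp.weight lam E → (w, E) ≠ (w₀, E₀) →
    x (∑ w', conv p (z w') (y w w') E) = 0

variable {p} {x : AA L →+* B}

theorem Dop_sum {ι : Type*} (s : Finset ι) (r : ι → (ℕ →₀ ℕ) → AA L) (G : MvPolynomial ℕ B) :
    Dop p x (fun E => ∑ i ∈ s, r i E) G = ∑ i ∈ s, Dop p x (r i) G := rAp_sum s _ r _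

theorem sum_Dop_dK (z : W' → (ℕ →₀ ℕ) → AA L) (y : W → W' → (ℕ →₀ ℕ) → AA L)
    (f : W → MvPolynomial ℕ B) : ∑ w', Dop p x (z w') (dK p x y f w') =
      ∑ w, Dop p x (fun E => ∑ w', conv p (z w') (y w w') E) (f w) := by
  simp only [dK_apply, map_sum, Dop_Dop, Dop_sum]
  exact Finset.sum_comm

omit [Fintype W'] in
theorem dK_mem (h : (p : B) = 0) (hx : ∀ i, x (X i) = 0) {deg : W → ℕ} {deg' : W' → ℕ}
    {y : W → W' → (ℕ →₀ ℕ) → AA L} (hy : HY p x deg deg' y) {e : ℕ} {f : W → MvPolynomial ℕ B}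
    (hf : f ∈ Hm p B deg e) : dK p x y f ∈ Hm p B deg' e := by
  intro w' F hF
  rw [dK_apply, coeff_sum] at hF
  obtain ⟨w, -, h1⟩ := Finset.exists_ne_zero_of_sum_ne_zero hF
  rw [coeff_Dop h hx] at h1
  obtain ⟨G, -, h2⟩ := Finset.exists_ne_zero_of_sum_ne_zero h1
  obtain ⟨E, -, h3⟩ := Finset.exists_ne_zero_of_sum_ne_zero (right_ne_zero_of_mul h2)
  have e1 := hf w G (left_ne_zero_of_mul h2)
  have e2 := cf_homog h hx (left_ne_zero_of_mul h3)
  have e3 := hy w w' E (right_ne_zero_of_mul h3)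
  omega

omit [Fintype W''] in
theorem dK_dK (h : (p : B) = 0) (hx : ∀ i, x (X i) = 0) {deg : W → ℕ} {T : ℕ}
    {y : W → W' → (ℕ →₀ ℕ) → AA L} {y' : W' → W'' → (ℕ →₀ ℕ) → AA L} (hd : DD p x deg T y y')
    {e : ℕ} (he : e < T) {f : W → MvPolynomial ℕ B} (hf : f ∈ Hm p B deg e) :
    dK p x y' (dK p x y f) = 0 := by
  funext w''
  rw [dK_apply, sum_Dop_dK]
  refine Finset.sum_eq_zero fun w _ => ?_
  ext F
  rw [coeff_Dop h hx]
  refine Finset.sum_eq_zero fun G hG => mul_eq_zero_of_right _ (Finset.sum_eq_zero fun E _ => ?_)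
  by_cases hc : cf p x G E F = 0
  · rw [hc, zero_mul]
  · have e1 := hf w G (mem_support_iff.1 hG)
    have e2 := cf_homog h hx hc
    rw [hd w w'' E (by omega), mul_zero]

theorem coeff_eq_zero_of_GB [IsDomain B] (h : (p : B) = 0) (hx : ∀ i, x (X i) = 0)
    {deg κ : W → ℕ} {lam : ℕ → ℕ} (hl : ∀ i j, lam (i + j + 1) < lam i + p ^ (i + 1) * lam j)
    {y : W → W' → (ℕ →₀ ℕ) → AA L} {w₀ : W} {E₀ G₀ : ℕ →₀ ℕ} (hg : GB p x deg κ lam y w₀ E₀)
    (hle : E₀ ≤ G₀) (hch : ∀ i, ((G₀ i).choose (E₀ i) : B) ≠ 0) {e : ℕ}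
    (he : Finsupp.weight (wt p) G₀ + deg w₀ = e) {f : W → MvPolynomial ℕ B}
    (hf : f ∈ Hm p B deg e) (hd : dK p x y f = 0)
    (hlt : ∀ w G, κ w + Finsupp.weight lam G < κ w₀ + Finsupp.weight lam G₀ → coeff G (f w) = 0) :
    coeff G₀ (f w₀) = 0 := by
  classical
  obtain ⟨z, hz, hz'⟩ := hg
  obtain ⟨F, rfl⟩ := exists_add_of_le hle
  have h1 := sum_Dop_dK (p := p) (x := x) z y f
  simp only [hd, Pi.zero_apply, map_zero, Finset.sum_const_zero] at h1
  have h2 := congrArg (coeff F) h1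
  rw [map_add] at he hlt
  have hc0 : cf p x (E₀ + F) E₀ F ≠ 0 := by
    rw [cf_lead h hx hl (by rw [map_add]), if_pos rfl]
    exact Finset.prod_ne_zero_iff.2 fun i _ => hch i
  have key : ∀ w G E, coeff G (f w) ≠ 0 → cf p x G E F ≠ 0 →
      x (∑ w', conv p (z w') (y w w') E) ≠ 0 → w = w₀ ∧ G = E₀ + F ∧ E = E₀ := by
    intro w G E c1 c2 c3
    have e1 := hf w G c1
    have e2 := cf_homog h hx c2
    have e3 : κ w₀ + (Finsupp.weight lam E₀ + Finsupp.weight lam F) ≤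
        κ w + Finsupp.weight lam G := not_lt.1 fun hh => c1 (hlt w G hh)
    have e4 : Finsupp.weight lam E + Finsupp.weight lam F ≤ Finsupp.weight lam G → E + F = G := by
      intro hh
      rw [cf_lead h hx hl hh] at c2
      by_contra hc
      exact c2 (if_neg hc)
    by_cases c4 : (w, E) = (w₀, E₀)
    · obtain ⟨rfl, rfl⟩ := Prod.mk.inj c4
      exact ⟨rfl, (e4 (by omega)).symm, rfl⟩
    · have e5 : κ w + Finsupp.weight lam E < κ w₀ + Finsupp.weight lam E₀ :=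
        not_le.1 fun hh => c3 (hz' w E (by omega) hh c4)
      have e6 := e4 (by omega)
      rw [← e6, map_add] at e3
      omega
  by_contra hne
  rw [coeff_zero, coeff_sum, Finset.sum_eq_single w₀, coeff_Dop h hx,
    Finset.sum_eq_single (E₀ + F), Finset.sum_eq_single E₀] at h2
  · exact mul_ne_zero hne (mul_ne_zero hc0 hz) h2.symm
  · intro E _ hE
    by_contra hc
    exact hE (key _ _ _ hne (left_ne_zero_of_mul hc) (right_ne_zero_of_mul hc)).2.2
  · intro hE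
    rw [cf, notMem_support_iff.1 hE, coeff_zero] at hc0
    exact absurd rfl hc0
  · intro G _ hG
    by_contra hc
    obtain ⟨E, -, h3⟩ := Finset.exists_ne_zero_of_sum_ne_zero (right_ne_zero_of_mul hc)
    exact hG (key _ _ _ (left_ne_zero_of_mul hc) (left_ne_zero_of_mul h3)
      (right_ne_zero_of_mul h3)).2.1
  · intro hG
    exact absurd (notMem_support_iff.1 hG) hne
  · intro w _ hw
    by_contra hc
    rw [coeff_Dop h hx] at hc
    obtain ⟨G, -, h2⟩ := Finset.exists_ne_zero_of_sum_ne_zero hc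
    obtain ⟨E, -, h3⟩ := Finset.exists_ne_zero_of_sum_ne_zero (right_ne_zero_of_mul h2)
    exact hw (key _ _ _ (left_ne_zero_of_mul h2) (left_ne_zero_of_mul h3)
      (right_ne_zero_of_mul h3)).1
  · intro hw
    exact absurd (Finset.mem_univ _) hw

end gen

variable [hp : Fact (Nat.Prime 3)] {F L : Type} [Field F] [CharP F 3] [CommRing L]
  {W W' W'' : Type} [Fintype W] [Fintype W'] [Fintype W''] {x : AA L →+* F}

/-- the coordinates at the standard monomials -/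
def crd (S : Finset (W × List ℕ)) : (W → MvPolynomial ℕ F) →ₗ[F] (S → F) :=
  LinearMap.pi fun i => (lcoeff F (toG i.1.2)).comp (LinearMap.proj i.1.1)

theorem crd_inj (hx : ∀ i, x (X i) = 0) {deg κ : W → ℕ} {lam : ℕ → ℕ}
    (hl : ∀ i j, lam (i + j + 1) < lam i + 3 ^ (i + 1) * lam j)
    {y : W → W' → (ℕ →₀ ℕ) → AA L} {lts : W → List (List ℕ)}
    (hg : ∀ w, ∀ l ∈ lts w, GB 3 x deg κ lam y w (toG l)) {e : ℕ} (he : e < 117)
    {f : W → MvPolynomial ℕ F} (hf : f ∈ Hm 3 F deg e) (hd : dK 3 x y f = 0)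
    (h0 : crd (NS deg lts e) f = 0) : f = 0 := by
  have key : ∀ n w G, κ w + Finsupp.weight lam G = n → coeff G (f w) = 0 := by
    intro n
    induction n using Nat.strong_induction_on with
    | _ n ih =>
      intro w G hn
      by_contra hc
      have e1 := hf w G hc
      obtain ⟨m, hm, rfl⟩ := exists_toG (G := G) (by omega)
      by_cases h1 : anyDm m (lts w) = true
      · obtain ⟨l, hl1, hl2⟩ := anyDm_true h1
        refine hc (coeff_eq_zero_of_GB (CharP.cast_eq_zero F 3) hx hl (hg w l hl1)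
          (toG_le hl2 hm.2) (fun i => ?_) e1 hf hd fun w' G' hh => ih _ (hn ▸ hh) w' G' rfl)
        rw [Ne, CharP.cast_eq_zero_iff F 3]
        exact toG_lucas hl2 hm.2 i
      · have h2 : (w, m) ∈ NS deg lts e :=
          mem_NS.2 ⟨hm, h1, by rw [← weight_toG hm.1, add_comm]; exact e1⟩
        exact hc (congrFun h0 ⟨_, h2⟩)
  funext w
  ext G
  exact key _ w G rfl

theorem finrank_ker_le (hx : ∀ i, x (X i) = 0) {deg κ : W → ℕ} {lam : ℕ → ℕ}
    (hl : ∀ i j, lam (i + j + 1) < lam i + 3 ^ (i + 1) * lam j)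
    {y : W → W' → (ℕ →₀ ℕ) → AA L} {lts : W → List (List ℕ)}
    (hg : ∀ w, ∀ l ∈ lts w, GB 3 x deg κ lam y w (toG l)) {e : ℕ} (he : e < 117) :
    Module.Finite F (Hm 3 F deg e ⊓ LinearMap.ker (dK 3 x y) : Submodule F _) ∧
    finrank F (Hm 3 F deg e ⊓ LinearMap.ker (dK 3 x y) : Submodule F _) ≤ (NS deg lts e).card := by
  have hi : Function.Injective ((crd (NS deg lts e)).comp
      (Hm 3 F deg e ⊓ LinearMap.ker (dK 3 x y) : Submodule F _).subtype) := by
    rw [injective_iff_map_eq_zero]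
    intro f hf
    exact Subtype.ext (crd_inj hx hl hg he f.2.1 f.2.2 hf)
  refine ⟨Module.Finite.of_injective _ hi, ?_⟩
  have h1 := LinearMap.finrank_le_finrank_of_injective hi
  rwa [finrank_fintype_fun_eq_card, Fintype.card_coe] at h1

open Classical in
/-- the element with given coordinates -/
def emb (S : Finset (W × List ℕ)) : (S → F) →ₗ[F] (W → MvPolynomial ℕ F) :=
  Fintype.linearCombination F fun i => Pi.single i.1.1 (monomial (toG i.1.2) 1)

open Classical in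
omit hp [CharP F 3] [Fintype W] in
theorem coeff_emb (S : Finset (W × List ℕ)) (c : S → F) (w : W) (G : ℕ →₀ ℕ) :
    coeff G (emb S c w) = ∑ i : S, if i.1.1 = w ∧ toG i.1.2 = G then c i else 0 := by
  rw [emb, Fintype.linearCombination_apply, Finset.sum_apply, coeff_sum]
  refine Finset.sum_congr rfl fun i _ => ?_
  rw [Pi.smul_apply, coeff_smul]
  by_cases h : i.1.1 = w
  · subst h
    rw [Pi.single_eq_same, coeff_monomial]
    by_cases h' : toG i.1.2 = G
    · simp [h']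
    · simp [h']
  · rw [Pi.single_eq_of_ne' h, if_neg fun hh => h hh.1, coeff_zero, smul_zero]

omit hp [CharP F 3] in
theorem emb_inj (deg : W → ℕ) (lts : W → List (List ℕ)) (e : ℕ) :
    Function.Injective (emb (F := F) (NS deg lts e)) := by
  rw [injective_iff_map_eq_zero]
  intro c hc
  funext j
  have h := coeff_emb _ c j.1.1 (toG j.1.2)
  rw [hc, Finset.sum_eq_single j, if_pos ⟨rfl, rfl⟩] at h
  · exact h.symm
  · intro i _ hi
    refine if_neg fun hh => hi (Subtype.ext (Prod.ext hh.1 ?_))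
    exact toG_inj (mem_NS.1 i.2).1 (mem_NS.1 j.2).1 hh.2
  · intro hj
    exact absurd (Finset.mem_univ _) hj

omit hp [CharP F 3] in
theorem emb_mem (deg : W → ℕ) (lts : W → List (List ℕ)) (e : ℕ) (c : NS deg lts e → F) :
    emb (NS deg lts e) c ∈ Hm 3 F deg e := by
  intro w G hG
  rw [coeff_emb] at hG
  obtain ⟨i, -, hi⟩ := Finset.exists_ne_zero_of_sum_ne_zero hG
  by_cases h : i.1.1 = w ∧ toG i.1.2 = G
  · obtain ⟨h1, h2, h3⟩ := mem_NS.1 i.2
    rw [← h.1, ← h.2, weight_toG h1.1, add_comm]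
    exact h3
  · exact absurd (if_neg h) hi

/-- **Exactness from leading terms and counting.** -/
theorem exact_of_GB (hx : ∀ i, x (X i) = 0) {deg κ : W → ℕ} {deg' κ' : W' → ℕ} {lam lam' : ℕ → ℕ}
    (hl : ∀ i j, lam (i + j + 1) < lam i + 3 ^ (i + 1) * lam j)
    (hl' : ∀ i j, lam' (i + j + 1) < lam' i + 3 ^ (i + 1) * lam' j)
    {y : W → W' → (ℕ →₀ ℕ) → AA L} {y' : W' → W'' → (ℕ →₀ ℕ) → AA L} (hy : HY 3 x deg deg' y)
    {T : ℕ} (hT : T ≤ 117) (hd : DD 3 x deg T y y')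
    {lts : W → List (List ℕ)} {lts' : W' → List (List ℕ)}
    (hg : ∀ w, ∀ l ∈ lts w, GB 3 x deg κ lam y w (toG l))
    (hg' : ∀ w, ∀ l ∈ lts' w, GB 3 x deg' κ' lam' y' w (toG l))
    {B : ℕ} (hB : Fintype.card W * 531441 < B) (hB' : Fintype.card W' * 531441 < B)
    (hc : ckD B (PN B deg' lts') (PN B deg lts) (PN B deg fun _ => []) T = true)
    {e : ℕ} (he : e < T) {f : W' → MvPolynomial ℕ F} (hf : f ∈ Hm 3 F deg' e)
    (h0 : dK 3 x y' f = 0) : ∃ g ∈ Hm 3 F deg e, dK 3 x y g = f := by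
  have h3 := CharP.cast_eq_zero F 3
  have c1 := ckD_le hc he
  rw [← card_NS hB', ← card_NS hB, ← card_NS hB] at c1
  obtain ⟨f0, r0⟩ := finrank_ker_le hx hl hg (he.trans_le hT)
  obtain ⟨f1, r1⟩ := finrank_ker_le hx hl' hg' (he.trans_le hT)
  set φ := emb (F := F) (NS deg (fun _ => []) e) with hφ
  have hle : LinearMap.range ((dK 3 x y).comp φ) ≤ Hm 3 F deg' e ⊓ LinearMap.ker (dK 3 x y') := by
    rintro _ ⟨c, rfl⟩
    exact ⟨dK_mem h3 hx hy (emb_mem _ _ _ c), dK_dK h3 hx hd he (emb_mem _ _ _ c)⟩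
  have r2 : finrank F (LinearMap.ker ((dK 3 x y).comp φ)) ≤
      finrank F (Hm 3 F deg e ⊓ LinearMap.ker (dK 3 x y) : Submodule F _) := by
    refine LinearMap.finrank_le_finrank_of_injective (f := (φ.comp (Submodule.subtype _)).codRestrict
      _ fun c => ⟨emb_mem _ _ _ c.1, c.2⟩) fun a b hab => ?_
    exact Subtype.ext (emb_inj _ _ _ (congrArg Subtype.val hab))
  have r3 := LinearMap.finrank_range_add_finrank_ker ((dK 3 x y).comp φ)
  rw [finrank_fintype_fun_eq_card, Fintype.card_coe] at r3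
  have heq := Submodule.eq_of_le_of_finrank_le hle (by omega)
  obtain ⟨c, hc⟩ : f ∈ LinearMap.range ((dK 3 x y).comp φ) := heq ▸ ⟨hf, h0⟩
  exact ⟨φ c, emb_mem _ _ _ c, hc⟩

/-- the kernel vanishes in the degrees without standard monomials -/
theorem ker_zero_of_GB (hx : ∀ i, x (X i) = 0) {deg κ : W → ℕ} {lam : ℕ → ℕ}
    (hl : ∀ i j, lam (i + j + 1) < lam i + 3 ^ (i + 1) * lam j)
    {y : W → W' → (ℕ →₀ ℕ) → AA L} {lts : W → List (List ℕ)}
    (hg : ∀ w, ∀ l ∈ lts w, GB 3 x deg κ lam y w (toG l))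
    {B : ℕ} (hB : Fintype.card W * 531441 < B) {e : ℕ} (he : e < 117)
    (hc : PN B deg lts / B ^ e % B = 0) {f : W → MvPolynomial ℕ F} (hf : f ∈ Hm 3 F deg e)
    (h0 : dK 3 x y f = 0) : f = 0 := by
  rw [← card_NS hB, Finset.card_eq_zero] at hc
  refine crd_inj hx hl hg he hf h0 ?_
  funext i
  exact absurd i.2 (Finset.eq_empty_iff_forall_notMem.1 hc _)

/-- the kernel is a line in the degrees with one standard monomial -/
theorem ker_line_of_GB (hx : ∀ i, x (X i) = 0) {deg κ : W → ℕ} {lam : ℕ → ℕ}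
    (hl : ∀ i j, lam (i + j + 1) < lam i + 3 ^ (i + 1) * lam j)
    {y : W → W' → (ℕ →₀ ℕ) → AA L} {lts : W → List (List ℕ)}
    (hg : ∀ w, ∀ l ∈ lts w, GB 3 x deg κ lam y w (toG l))
    {B : ℕ} (hB : Fintype.card W * 531441 < B) {e : ℕ} (he : e < 117)
    (hc : PN B deg lts / B ^ e % B ≤ 1) {g : W → MvPolynomial ℕ F} (hg1 : g ∈ Hm 3 F deg e)
    (hg2 : dK 3 x y g = 0) (hg3 : g ≠ 0) {f : W → MvPolynomial ℕ F} (hf : f ∈ Hm 3 F deg e)
    (h0 : dK 3 x y f = 0) : ∃ c : F, c • g = f := by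
  rw [← card_NS hB] at hc
  obtain ⟨f0, r0⟩ := finrank_ker_le hx hl hg he
  have hle : (F ∙ g) ≤ Hm 3 F deg e ⊓ LinearMap.ker (dK 3 x y) :=
    (Submodule.span_singleton_le_iff_mem _ _).2 ⟨hg1, hg2⟩
  have heq := Submodule.eq_of_le_of_finrank_le hle (by rw [finrank_span_singleton hg3]; omega)
  exact Submodule.mem_span_singleton.1 (heq ▸ ⟨hf, h0⟩)

omit hp in
theorem lam_of_bounds {lam : ℕ → ℕ} {K : ℕ} (h : ∀ i, K ≤ lam i ∧ lam i < 4 * K) (i j : ℕ) :
    lam (i + j + 1) < lam i + 3 ^ (i + 1) * lam j := by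
  have h1 : 3 * lam j ≤ 3 ^ (i + 1) * lam j :=
    Nat.mul_le_mul_right _ (Nat.le_self_pow (Nat.succ_ne_zero i) 3)
  have := h i
  have := h j
  have := h (i + j + 1)
  omega

end Vale.Agent.P236K2

end
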