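import Vale.Agent.P236K2.Add
import Mathlib.Data.Nat.Choose.Sum

/-!
# P236K2 / Lead : leading terms of the diagonal of the dual Steenrod algebra
-/

noncomputable section

namespace Vale.Agent.P236K2

open MvPolynomial Vale.Agent.P236EL

section fil

variable {B : Type*} [CommRing B]

/-- a filtration of a polynomial ring by weights -/
def ex (ω : ℕ → ℤ) (𝒜 : ℤ → AddSubgroup B) (n : ℤ) : AddSubgroup (MvPolynomial ℕ B) where
  carrier := {G | ∀ E, coeff E G ∈ 𝒜 (n - Finsupp.weight ω E)}
  zero_mem' _ := AddSubgroup.zero_mem _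
  add_mem' {a b} ha hb E := by
    rw [coeff_add]
    exact AddSubgroup.add_mem _ (ha E) (hb E)
  neg_mem' {a} ha E := by
    rw [coeff_neg]
    exact AddSubgroup.neg_mem _ (ha E)

variable {ω : ℕ → ℤ} {𝒜 : ℤ → AddSubgroup B}

theorem monomial_mem_ex {n : ℤ} {b : B} {E : ℕ →₀ ℕ}
    (hb : b ∈ 𝒜 (n - Finsupp.weight ω E)) : monomial E b ∈ ex ω 𝒜 n := by
  classical
  intro E'
  rw [coeff_monomial]
  split_ifs with h
  · exact h ▸ hb
  · exact AddSubgroup.zero_mem _

theorem C_mem_ex {n : ℤ} {b : B} (hb : b ∈ 𝒜 n) : C b ∈ ex ω 𝒜 n :=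
  monomial_mem_ex (by rwa [map_zero, sub_zero])

instance [SetLike.GradedMonoid 𝒜] : SetLike.GradedMonoid (ex ω 𝒜) where
  one_mem := C_mem_ex (SetLike.one_mem_graded 𝒜)
  mul_mem m n f g hf hg E := by
    classical
    rw [coeff_mul]
    refine AddSubgroup.sum_mem _ fun ab hab => ?_
    have h := SetLike.mul_mem_graded (hf ab.1) (hg ab.2)
    rw [← Finset.HasAntidiagonal.mem_antidiagonal.1 hab, map_add]
    convert h using 2
    ring

theorem X_mem_ex [SetLike.GradedMonoid 𝒜] (i : ℕ) : X i ∈ ex ω 𝒜 (ω i) :=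
  monomial_mem_ex (by
    rw [Finsupp.weight_single, one_smul, sub_self]
    exact SetLike.one_mem_graded 𝒜)

variable (B) in
/-- the trivial filtration -/
def tr (n : ℤ) : AddSubgroup B := if n ≤ 0 then ⊤ else ⊥

theorem mem_tr {n : ℤ} {b : B} : b ∈ tr B n ↔ (b ≠ 0 → n ≤ 0) := by
  unfold tr
  split_ifs with h
  · simp [h]
  · simp [h]

instance : SetLike.GradedMonoid (tr B) where
  one_mem := mem_tr.2 fun _ => le_rfl
  mul_mem _ _ _ _ hf hg := mem_tr.2 fun h =>
    add_nonpos (mem_tr.1 hf (left_ne_zero_of_mul h)) (mem_tr.1 hg (right_ne_zero_of_mul h))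

variable (B ω) in
/-- the filtration of functions of two arrows -/
abbrev Fil : ℤ → AddSubgroup (MvPolynomial ℕ (MvPolynomial ℕ B)) := ex ω (ex ω (tr B))

theorem mem_Fil {n : ℤ} {g : MvPolynomial ℕ (MvPolynomial ℕ B)} : g ∈ Fil B ω n ↔
    ∀ E F, coeff F (coeff E g) ≠ 0 → n ≤ Finsupp.weight ω E + Finsupp.weight ω F := by
  refine forall_congr' fun E => forall_congr' fun F => ?_
  rw [mem_tr]
  exact imp_congr_right fun _ => by constructor <;> intro h <;> omega

theorem Fil_mono {m n : ℤ} (h : m ≤ n) {g : MvPolynomial ℕ (MvPolynomial ℕ B)}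
    (hg : g ∈ Fil B ω n) : g ∈ Fil B ω m :=
  mem_Fil.2 fun E F hc => h.trans (mem_Fil.1 hg E F hc)

theorem monomial_one_add (G H : ℕ →₀ ℕ) :
    (monomial (G + H) 1 : MvPolynomial ℕ B) = monomial G 1 * monomial H 1 := by
  rw [monomial_mul, mul_one]

theorem monomial_ind {Q : (ℕ →₀ ℕ) → Prop} (h0 : Q 0) (h1 : ∀ i, Q (Finsupp.single i 1))
    (ha : ∀ G H, Q G → Q H → Q (G + H)) (G : ℕ →₀ ℕ) : Q G := by
  induction G using Finsupp.induction_linear with
  | zero => exact h0
  | add G H hG hH => exact ha G H hG hH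
  | single i n =>
    induction n with
    | zero => rwa [Finsupp.single_zero]
    | succ n ih =>
      rw [Finsupp.single_add]
      exact ha _ _ ih (h1 i)

theorem map_monomial_mem {Δ : MvPolynomial ℕ B →+* MvPolynomial ℕ (MvPolynomial ℕ B)}
    (h : ∀ i, Δ (X i) ∈ Fil B ω (ω i)) (G : ℕ →₀ ℕ) :
    Δ (monomial G 1) ∈ Fil B ω (Finsupp.weight ω G) := by
  induction G using monomial_ind with
  | h0 =>
    rw [map_zero, monomial_zero', C_1, map_one]
    exact SetLike.one_mem_graded _
  | h1 i =>
    rw [Finsupp.weight_single, one_smul]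
    exact h i
  | ha G H hG hH =>
    rw [monomial_one_add, map_mul, map_add]
    exact SetLike.mul_mem_graded hG hH

theorem map_monomial_sub_mem {Δ Δ' : MvPolynomial ℕ B →+* MvPolynomial ℕ (MvPolynomial ℕ B)}
    (h : ∀ i, Δ (X i) ∈ Fil B ω (ω i)) (h' : ∀ i, Δ' (X i) ∈ Fil B ω (ω i))
    (hs : ∀ i, Δ (X i) - Δ' (X i) ∈ Fil B ω (ω i + 1)) (G : ℕ →₀ ℕ) :
    Δ (monomial G 1) - Δ' (monomial G 1) ∈ Fil B ω (Finsupp.weight ω G + 1) := by
  induction G using monomial_ind with
  | h0 =>
    rw [monomial_zero', C_1, map_one, map_one, sub_self]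
    exact AddSubgroup.zero_mem _
  | h1 i =>
    rw [Finsupp.weight_single, one_smul]
    exact hs i
  | ha G H hG hH =>
    have e : Δ (monomial (G + H) 1) - Δ' (monomial (G + H) 1) =
        (Δ (monomial G 1) - Δ' (monomial G 1)) * Δ (monomial H 1) +
        Δ' (monomial G 1) * (Δ (monomial H 1) - Δ' (monomial H 1)) := by
      rw [monomial_one_add, map_mul, map_mul]
      ring
    rw [e, map_add]
    refine AddSubgroup.add_mem _ ?_ ?_
    · have h1 := SetLike.mul_mem_graded hG (map_monomial_mem h H)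
      rwa [add_right_comm] at h1
    · have h1 := SetLike.mul_mem_graded (map_monomial_mem h' G) hH
      rwa [← add_assoc] at h1

variable (B) in
/-- the primitive diagonal -/
def prim : MvPolynomial ℕ B →+* MvPolynomial ℕ (MvPolynomial ℕ B) :=
  eval₂Hom (C.comp C) fun i => C (X i) + X i

theorem prim_X (i : ℕ) : prim B (X i) = C (X i) + X i := by simp [prim]

theorem prim_X_mem (i : ℕ) : prim B (X i) ∈ Fil B ω (ω i) := by
  rw [prim_X]
  exact AddSubgroup.add_mem _ (C_mem_ex (X_mem_ex i)) (X_mem_ex i)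

theorem coeff_prim (G E F : ℕ →₀ ℕ) : coeff F (coeff E (prim B (monomial G 1))) =
    if E + F = G then ∏ i ∈ G.support, ((G i).choose (E i) : B) else 0 := by
  classical
  induction G using Finsupp.induction generalizing E F with
  | zero =>
    rw [monomial_zero', C_1, map_one, coeff_one]
    by_cases hE : 0 = E
    · subst hE
      rw [if_pos rfl, coeff_one, zero_add]
      simp [eq_comm]
    · rw [if_neg hE, coeff_zero, if_neg]
      intro h
      exact hE (add_eq_zero.1 h).1.symm
  | single_add a n G ha hn ih =>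
    have hGa : G a = 0 := Finsupp.notMem_support_iff.1 ha
    have h1 : prim B (monomial (Finsupp.single a n) 1) = ∑ k ∈ Finset.range (n + 1),
        monomial (Finsupp.single a k) (monomial (Finsupp.single a (n - k)) (n.choose k : B)) := by
      rw [← X_pow_eq_monomial, map_pow, prim_X, add_comm, add_pow]
      refine Finset.sum_congr rfl fun k _ => ?_
      rw [← map_pow, X_pow_eq_monomial, X_pow_eq_monomial, ← map_natCast C, mul_assoc, ← map_mul,
        mul_comm, C_mul_monomial, mul_one, ← map_natCast C, mul_comm, C_mul_monomial, mul_one]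
    rw [monomial_one_add, map_mul, h1, Finset.sum_mul, coeff_sum, coeff_sum]
    have h2 : ∀ k ∈ Finset.range (n + 1), coeff F (coeff E
        (monomial (Finsupp.single a k) (monomial (Finsupp.single a (n - k)) (n.choose k : B)) *
          prim B (monomial G 1))) = if k = E a ∧ E + F = Finsupp.single a n + G then
          (n.choose k : B) * ∏ i ∈ G.support, ((G i).choose (E i) : B) else 0 := by
      intro k hk
      rw [Finset.mem_range] at hk
      rw [coeff_monomial_mul']
      by_cases c1 : Finsupp.single a k ≤ E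
      · rw [if_pos c1, coeff_monomial_mul']
        by_cases c2 : Finsupp.single a (n - k) ≤ F
        · rw [if_pos c2, ih]
          have e1 : E + F = Finsupp.single a n +
              (E - Finsupp.single a k + (F - Finsupp.single a (n - k))) := by
            conv_lhs => rw [← add_tsub_cancel_of_le c1, ← add_tsub_cancel_of_le c2]
            rw [add_add_add_comm, ← Finsupp.single_add, Nat.add_sub_cancel' (by omega)]
          by_cases c3 : E - Finsupp.single a k + (F - Finsupp.single a (n - k)) = G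
          · have e2 := DFunLike.congr_fun c3 a
            have e3 := Finsupp.single_le_iff.1 c1
            simp only [Finsupp.add_apply, Finsupp.tsub_apply, Finsupp.single_eq_same, hGa] at e2
            rw [if_pos c3, if_pos ⟨by omega, by rw [e1, c3]⟩]
            congr 1
            refine Finset.prod_congr rfl fun i hi => ?_
            have e4 : i ≠ a := fun e => ha (e ▸ hi)
            rw [Finsupp.tsub_apply, Finsupp.single_eq_of_ne e4, Nat.sub_zero]
          · rw [if_neg c3, mul_zero, if_neg]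
            rintro ⟨-, h⟩
            rw [e1] at h
            exact c3 (add_left_cancel h)
        · rw [if_neg c2, if_neg]
          rintro ⟨h, h'⟩
          have e2 := DFunLike.congr_fun h' a
          simp only [Finsupp.add_apply, Finsupp.single_eq_same, hGa] at e2
          exact c2 (Finsupp.single_le_iff.2 (by omega))
      · rw [if_neg c1, coeff_zero, if_neg]
        rintro ⟨h, -⟩
        exact c1 (Finsupp.single_le_iff.2 h.le)
    rw [Finset.sum_congr rfl h2]
    by_cases c : E + F = Finsupp.single a n + G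
    · have e2 := DFunLike.congr_fun c a
      simp only [Finsupp.add_apply, Finsupp.single_eq_same, hGa] at e2
      rw [if_pos c, Finset.sum_eq_single (E a), if_pos ⟨rfl, c⟩,
        Finsupp.support_single_add ha hn, Finset.prod_cons]
      · simp only [Finsupp.add_apply, Finsupp.single_eq_same, hGa, add_zero]
        congr 1
        refine Finset.prod_congr rfl fun i hi => ?_
        have e4 : i ≠ a := fun e => ha (e ▸ hi)
        rw [Finsupp.single_eq_of_ne e4, zero_add]
      · intro k _ hk
        exact if_neg fun h => hk h.1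
      · intro h
        exact absurd (Finset.mem_range.2 (by omega)) h
    · rw [if_neg c]
      exact Finset.sum_eq_zero fun k _ => if_neg fun h => c h.2

end fil

variable {p : ℕ} [hp : Fact p.Prime] {B L : Type} [CommRing B] [CommRing L] {x : AA L →+* B}
  {ω : ℕ → ℤ}

omit hp in
theorem rest_mem {c : ℤ} (hω : ∀ i j, ω (i + j + 1) + c ≤ ω i + p ^ (i + 1) * ω j) (n : ℕ) :
    (∑ j ∈ Finset.range n, C (X (n - (j + 1))) * X j ^ p ^ (n - j) :
      MvPolynomial ℕ (MvPolynomial ℕ B)) ∈ Fil B ω (ω n + c) := by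
  refine AddSubgroup.sum_mem _ fun j hj => ?_
  rw [Finset.mem_range] at hj
  have h1 := hω (n - (j + 1)) j
  rw [show n - (j + 1) + j + 1 = n by omega, show n - (j + 1) + 1 = n - j by omega] at h1
  refine Fil_mono h1 ?_
  have h2 := SetLike.mul_mem_graded (A := Fil B ω) (C_mem_ex (X_mem_ex (n - (j + 1))))
    (SetLike.pow_mem_graded (p ^ (n - j)) (X_mem_ex j))
  rwa [nsmul_eq_mul, Nat.cast_pow] at h2

theorem delx_X_mem (h : (p : B) = 0) (hx : ∀ i, x (X i) = 0)
    (hω : ∀ i j, ω (i + j + 1) ≤ ω i + p ^ (i + 1) * ω j) (n : ℕ) :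
    delx p x (X n) ∈ Fil B ω (ω n) := by
  rw [delx_add p h hx, ← prim_X]
  refine AddSubgroup.add_mem _ (prim_X_mem n) ?_
  have h1 := rest_mem (p := p) (B := B) (c := 0) (by simpa using hω) n
  rwa [add_zero] at h1

/-- the structure constants -/
def cf (p : ℕ) [Fact p.Prime] (x : AA L →+* B) (G E F : ℕ →₀ ℕ) : B :=
  coeff F (coeff E (delx p x (monomial G 1)))

theorem weight_castN (ω : ℕ → ℕ) (E : ℕ →₀ ℕ) :
    Finsupp.weight (fun i => (ω i : ℤ)) E = (Finsupp.weight ω E : ℕ) := weight_cast ω E

theorem wt_add (i j : ℕ) : wt p (i + j + 1) = wt p i + p ^ (i + 1) * wt p j := by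
  have h := wt_mul (p := p) hp.out.one_lt.le i
  have h1 : 1 ≤ p ^ (i + 1) := Nat.one_le_pow _ _ hp.out.pos
  have h2 := hp.out.one_lt
  induction j with
  | zero =>
    rw [add_zero, wt, wt]
    zify [h1, h2.le] at h ⊢
    linear_combination h
  | succ j ih =>
    rw [← add_assoc, wt, ih, wt]
    zify [h1, h2.le] at h ⊢
    linear_combination h

theorem cf_homog (h : (p : B) = 0) (hx : ∀ i, x (X i) = 0) {G E F : ℕ →₀ ℕ}
    (hc : cf p x G E F ≠ 0) :
    Finsupp.weight (wt p) E + Finsupp.weight (wt p) F = Finsupp.weight (wt p) G := by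
  have h1 := mem_Fil.1 (map_monomial_mem (delx_X_mem (ω := fun i => (wt p i : ℤ)) h hx
    fun i j => by rw [wt_add]; push_cast; exact le_rfl) G) E F hc
  have h2 := mem_Fil.1 (map_monomial_mem (delx_X_mem (ω := fun i => -(wt p i : ℤ)) h hx
    fun i j => by rw [wt_add]; push_cast; exact le_of_eq (by ring)) G) E F hc
  have h3 : ∀ E : ℕ →₀ ℕ, Finsupp.weight (fun i => -(wt p i : ℤ)) E =
      -(Finsupp.weight (wt p) E : ℕ) := fun E => by
    rw [← weight_castN, Finsupp.weight_apply, Finsupp.weight_apply, Finsupp.sum, Finsupp.sum,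
      ← Finset.sum_neg_distrib]
    simp only [smul_neg]
  simp only [weight_castN] at h1
  simp only [h3] at h2
  omega

theorem cf_lead (h : (p : B) = 0) (hx : ∀ i, x (X i) = 0) {lam : ℕ → ℕ}
    (hl : ∀ i j, lam (i + j + 1) < lam i + p ^ (i + 1) * lam j) {G E F : ℕ →₀ ℕ}
    (hw : Finsupp.weight lam E + Finsupp.weight lam F ≤ Finsupp.weight lam G) :
    cf p x G E F = if E + F = G then ∏ i ∈ G.support, ((G i).choose (E i) : B) else 0 := by
  have hω : ∀ i j, (lam (i + j + 1) : ℤ) + 1 ≤ lam i + p ^ (i + 1) * lam j := fun i j => by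
    exact_mod_cast hl i j
  have h1 := mem_Fil.1 (map_monomial_sub_mem (ω := fun i => (lam i : ℤ))
    (delx_X_mem h hx fun i j => (le_add_of_nonneg_right zero_le_one).trans (hω i j))
    prim_X_mem (fun n => by
      rw [delx_add p h hx, ← prim_X, add_sub_cancel_left]
      exact rest_mem hω n) G) E F
  simp only [weight_castN] at h1
  rw [← coeff_prim, ← sub_eq_zero, cf, ← coeff_sub, ← coeff_sub]
  by_contra hc
  have := h1 hc
  omega

theorem coeff_Dop (h : (p : B) = 0) (hx : ∀ i, x (X i) = 0) (r : (ℕ →₀ ℕ) → AA L)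
    (f : MvPolynomial ℕ B) (F : ℕ →₀ ℕ) : coeff F (Dop p x r f) = ∑ G ∈ f.support, coeff G f *
      ∑ E ∈ (delx p x (monomial G 1)).support, cf p x G E F * x (r E) := by
  conv_lhs => rw [f.as_sum, map_sum, coeff_sum]
  refine Finset.sum_congr rfl fun G _ => ?_
  have e : (monomial G (coeff G f) : MvPolynomial ℕ B) = coeff G f • monomial G 1 := by
    rw [smul_monomial, smul_eq_mul, mul_one]
  rw [e, map_smul, coeff_smul, smul_eq_mul, Dop_apply, rAp_eq, coeff_sum]
  congr 1
  refine Finset.sum_congr rfl fun E _ => ?_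
  rw [etax_add p h hx, mul_comm, coeff_C_mul, mul_comm, cf]

end Vale.Agent.P236K2

end
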